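import Mathlib

/-!
# P181 (Foulkes): the dimension inequality

For `1 ≤ a ≤ b` and every `d`, the number of monomials of degree `a` in the monomials of degree
`b` in `d` variables is at most the number of monomials of degree `b` in the monomials of degree
`a` in `d` variables, that is `dim Sym^a(Sym^b V) ≤ dim Sym^b(Sym^a V)` for `dim V = d`.

Abbreviations: `e = d - 1`, `NN e k = C(k + e, k)` (monomials of degree `k` in `e + 1` variables) and
`CC e k a = C(NN e k - 1 + a, a)` (multisets of size `a` of such monomials), both as reals.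
-/

namespace Vale.Agent.Lib.P181.H49

/-- the number of monomials of degree `k` in `e + 1` variables, as a real number -/
noncomputable def NN (e k : ℕ) : ℝ := ((k + e).choose k : ℝ)

theorem NN_pos (e k : ℕ) : 0 < NN e k := by
  unfold NN
  exact_mod_cast Nat.choose_pos (Nat.le_add_right k e)

theorem NN_zero (k : ℕ) : NN 0 k = 1 := by
  unfold NN
  simp

theorem NN_one (e : ℕ) : NN e 1 = (e : ℝ) + 1 := by
  unfold NN
  rw [Nat.choose_one_right]
  push_cast
  ring

theorem NN_succ_right (e k : ℕ) :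
    NN e (k + 1) * ((k : ℝ) + 1) = NN e k * ((k : ℝ) + 1 + e) := by
  unfold NN
  have h := Nat.add_one_mul_choose_eq (k + e) k
  have e1 : k + 1 + e = k + e + 1 := by omega
  rw [e1]
  have h2 := congrArg (Nat.cast : ℕ → ℝ) h
  push_cast at h2
  linarith

theorem NN_succ_left (e k : ℕ) :
    NN (e + 1) k * ((e : ℝ) + 1) = NN e k * ((k : ℝ) + e + 1) := by
  unfold NN
  have h := Nat.choose_mul_succ_eq (k + e) k
  have e1 : k + e + 1 - k = e + 1 := by omega
  rw [e1] at h
  have e2 : k + (e + 1) = k + e + 1 := by omega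
  rw [e2]
  have h2 := congrArg (Nat.cast : ℕ → ℝ) h
  push_cast at h2
  linarith

/-- the basic lower bound for the number of monomials -/
theorem T (e k : ℕ) :
    ((k : ℝ) + 1) * ((k : ℝ) * e + e + 1) ≤ NN e k * ((k : ℝ) + e + 1) := by
  induction e with
  | zero =>
    rw [NN_zero]
    push_cast
    nlinarith
  | succ e ih =>
    have h := NN_succ_left e k
    have hpos : (0 : ℝ) < (e : ℝ) + 1 := by positivity
    push_cast
    have h2 : NN (e + 1) k * ((k : ℝ) + ((e : ℝ) + 1) + 1) * ((e : ℝ) + 1)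
        = NN e k * ((k : ℝ) + e + 1) * ((k : ℝ) + e + 2) := by
      linear_combination ((k : ℝ) + e + 2) * h
    have h3 : ((k : ℝ) + 1) * ((k : ℝ) * e + e + 1) * ((k : ℝ) + e + 2)
        ≤ NN e k * ((k : ℝ) + e + 1) * ((k : ℝ) + e + 2) :=
      mul_le_mul_of_nonneg_right ih (by positivity)
    have h4 : (0 : ℝ) ≤ ((k : ℝ) + 1) * ((k : ℝ) + 1) * k * e := by positivity
    have h5 : ((k : ℝ) + 1) * ((k : ℝ) * ((e : ℝ) + 1) + ((e : ℝ) + 1) + 1) * ((e : ℝ) + 1)
        ≤ NN (e + 1) k * ((k : ℝ) + ((e : ℝ) + 1) + 1) * ((e : ℝ) + 1) := by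
      rw [h2]
      nlinarith
    exact le_of_mul_le_mul_right h5 hpos

/-- the auxiliary quantity `(N_k - k - 1) / (k N_k)` -/
noncomputable def psi (e k : ℕ) : ℝ := (NN e k - k - 1) / ((k : ℝ) * NN e k)

theorem psi_succ_le (e k : ℕ) (hk : 1 ≤ k) : psi e (k + 1) ≤ psi e k := by
  unfold psi
  have hN := NN_pos e k
  have hN' := NN_pos e (k + 1)
  have hk0 : (0 : ℝ) < (k : ℝ) := by exact_mod_cast hk
  have hrec := NN_succ_right e k
  have hT := T e k
  rw [div_le_div_iff₀ (by positivity) (by positivity)]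
  push_cast
  have key : ((NN e k - k - 1) * (((k : ℝ) + 1) * NN e (k + 1))
      - (NN e (k + 1) - ((k : ℝ) + 1) - 1) * ((k : ℝ) * NN e k)) * ((k : ℝ) + 1)
      = NN e k * (NN e k * ((k : ℝ) + e + 1) - ((k : ℝ) + 1) * ((k : ℝ) * e + e + 1)) := by
    linear_combination (NN e k - ((k : ℝ) + 1) ^ 2) * hrec
  have hnn : 0 ≤ NN e k * (NN e k * ((k : ℝ) + e + 1) - ((k : ℝ) + 1) * ((k : ℝ) * e + e + 1)) :=
    mul_nonneg hN.le (by linarith)
  have hk1 : (0 : ℝ) < (k : ℝ) + 1 := by positivity
  have h6 : 0 ≤ (NN e k - k - 1) * (((k : ℝ) + 1) * NN e (k + 1))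
      - (NN e (k + 1) - ((k : ℝ) + 1) - 1) * ((k : ℝ) * NN e k) := by
    by_contra hneg
    push Not at hneg
    have := mul_neg_of_neg_of_pos hneg hk1
    linarith
  linarith

theorem psi_anti (e a b : ℕ) (ha : 1 ≤ a) (hab : a ≤ b) : psi e b ≤ psi e a := by
  induction b, hab using Nat.le_induction with
  | base => exact le_refl _
  | succ b hb ih => exact (psi_succ_le e b (le_trans ha hb)).trans ih

theorem bracket (e a b : ℕ) (ha : 1 ≤ a) (hab : a ≤ b) :
    (a : ℝ) * NN e a * (NN e b - b - 1) ≤ (b : ℝ) * NN e b * (NN e a - a - 1) := by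
  have h := psi_anti e a b ha hab
  unfold psi at h
  have ha0 : (0 : ℝ) < (a : ℝ) := by exact_mod_cast ha
  have hb0 : (0 : ℝ) < (b : ℝ) := by exact_mod_cast (lt_of_lt_of_le ha hab)
  have hA := NN_pos e a
  have hB := NN_pos e b
  rw [div_le_div_iff₀ (by positivity) (by positivity)] at h
  linarith

theorem star (e a b : ℕ) (ha : 1 ≤ a) (hab : a ≤ b) :
    (NN e a + b) * (NN e (b + 1) + a) ≤ (NN e (a + 1) + b) * (NN e b + a) := by
  have hbr := bracket e a b ha hab
  have h1 := NN_succ_right e a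
  have h2 := NN_succ_right e b
  have he : (0 : ℝ) ≤ (e : ℝ) := by positivity
  have hpos : (0 : ℝ) < ((a : ℝ) + 1) * ((b : ℝ) + 1) := by positivity
  have hL : (NN e a + b) * (NN e (b + 1) + a) * (((a : ℝ) + 1) * ((b : ℝ) + 1))
      = (NN e a + b) * ((a : ℝ) + 1) * (NN e b * ((b : ℝ) + 1 + e) + a * ((b : ℝ) + 1)) := by
    linear_combination ((NN e a + b) * ((a : ℝ) + 1)) * h2
  have hR : (NN e (a + 1) + b) * (NN e b + a) * (((a : ℝ) + 1) * ((b : ℝ) + 1))
      = (NN e a * ((a : ℝ) + 1 + e) + b * ((a : ℝ) + 1)) * (NN e b + a) * ((b : ℝ) + 1) := by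
    linear_combination ((NN e b + a) * ((b : ℝ) + 1)) * h1
  have hdiff : (NN e a * ((a : ℝ) + 1 + e) + b * ((a : ℝ) + 1)) * (NN e b + a) * ((b : ℝ) + 1)
      - (NN e a + b) * ((a : ℝ) + 1) * (NN e b * ((b : ℝ) + 1 + e) + a * ((b : ℝ) + 1))
      = e * ((b : ℝ) * NN e b * (NN e a - a - 1) - (a : ℝ) * NN e a * (NN e b - b - 1)) := by
    ring
  have hnn : 0 ≤ (e : ℝ) * ((b : ℝ) * NN e b * (NN e a - a - 1)
      - (a : ℝ) * NN e a * (NN e b - b - 1)) := mul_nonneg he (by linarith)
  have h7 : (NN e a + b) * (NN e (b + 1) + a) * (((a : ℝ) + 1) * ((b : ℝ) + 1))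
      ≤ (NN e (a + 1) + b) * (NN e b + a) * (((a : ℝ) + 1) * ((b : ℝ) + 1)) := by
    rw [hL, hR]
    linarith
  exact le_of_mul_le_mul_right h7 hpos

/-- the number of multisets of size `a` of monomials of degree `k` in `e + 1` variables -/
noncomputable def CC (e k a : ℕ) : ℝ := ((((k + e).choose k - 1 + a).choose a : ℕ) : ℝ)

theorem CC_pos (e k a : ℕ) : 0 < CC e k a := by
  unfold CC
  exact_mod_cast Nat.choose_pos (Nat.le_add_left a _)

theorem CC_one (e k : ℕ) : CC e k 1 = NN e k := by
  unfold CC NN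
  rw [Nat.choose_one_right]
  have h : 1 ≤ (k + e).choose k := Nat.choose_pos (Nat.le_add_right k e)
  rw [Nat.sub_add_cancel h]

theorem CC_succ (e k a : ℕ) :
    CC e k (a + 1) * ((a : ℝ) + 1) = CC e k a * (NN e k + a) := by
  unfold CC NN
  have h1 : 1 ≤ (k + e).choose k := Nat.choose_pos (Nat.le_add_right k e)
  obtain ⟨m, hm⟩ : ∃ m, (k + e).choose k = m + 1 := ⟨(k + e).choose k - 1, by omega⟩
  rw [hm]
  have h := Nat.add_one_mul_choose_eq (m + a) a
  have e1 : m + 1 - 1 + (a + 1) = m + a + 1 := by omega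
  have e2 : m + 1 - 1 + a = m + a := by omega
  rw [e1, e2]
  have h2 := congrArg (Nat.cast : ℕ → ℝ) h
  push_cast at h2
  push_cast
  linarith

theorem K (e b : ℕ) (a : ℕ) (ha : 1 ≤ a) :
    a ≤ b → ((b : ℝ) + 1) * CC e (b + 1) a ≤ (NN e a + b) * CC e b a := by
  induction a, ha using Nat.le_induction with
  | base =>
    intro _
    rw [CC_one, CC_one, NN_one]
    have h := NN_succ_right e b
    linarith
  | succ a ha ih =>
    intro hab
    have hab' : a ≤ b := by omega
    have ih' := ih hab'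
    have hst := star e a b ha hab'
    have c1 := CC_succ e (b + 1) a
    have c2 := CC_succ e b a
    have hC := CC_pos e b a
    have hN := NN_pos e (b + 1)
    have ha0 : (0 : ℝ) ≤ (a : ℝ) := by positivity
    have hpos : (0 : ℝ) < (a : ℝ) + 1 := by positivity
    have s1 : ((b : ℝ) + 1) * CC e (b + 1) a * (NN e (b + 1) + a)
        ≤ (NN e a + b) * CC e b a * (NN e (b + 1) + a) :=
      mul_le_mul_of_nonneg_right ih' (by linarith)
    have s2 : (NN e a + b) * (NN e (b + 1) + a) * CC e b a
        ≤ (NN e (a + 1) + b) * (NN e b + a) * CC e b a :=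
      mul_le_mul_of_nonneg_right hst hC.le
    have h8 : ((b : ℝ) + 1) * CC e (b + 1) (a + 1) * ((a : ℝ) + 1)
        ≤ (NN e (a + 1) + b) * CC e b (a + 1) * ((a : ℝ) + 1) := by
      have l1 : ((b : ℝ) + 1) * CC e (b + 1) (a + 1) * ((a : ℝ) + 1)
          = ((b : ℝ) + 1) * CC e (b + 1) a * (NN e (b + 1) + a) := by
        linear_combination ((b : ℝ) + 1) * c1
      have l2 : (NN e (a + 1) + b) * CC e b (a + 1) * ((a : ℝ) + 1)
          = (NN e (a + 1) + b) * (NN e b + a) * CC e b a := by
        linear_combination (NN e (a + 1) + b) * c2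
      rw [l1, l2]
      linarith
    have h9 := le_of_mul_le_mul_right h8 hpos
    linarith

theorem main_real (e a : ℕ) (ha : 1 ≤ a) (b : ℕ) (hab : a ≤ b) : CC e b a ≤ CC e a b := by
  induction b, hab using Nat.le_induction with
  | base => exact le_refl _
  | succ b hb ih =>
    have hK := K e b a ha hb
    have c := CC_succ e a b
    have hNa := NN_pos e a
    have hb0 : (0 : ℝ) ≤ (b : ℝ) := by positivity
    have hpos : (0 : ℝ) < (b : ℝ) + 1 := by positivity
    have s : (NN e a + b) * CC e b a ≤ (NN e a + b) * CC e a b :=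
      mul_le_mul_of_nonneg_left ih (by linarith)
    have h8 : CC e (b + 1) a * ((b : ℝ) + 1) ≤ CC e a (b + 1) * ((b : ℝ) + 1) := by
      rw [c]
      linarith
    exact le_of_mul_le_mul_right h8 hpos

/-- binomial form, `d = e + 1` variables -/
theorem main_nat (e a b : ℕ) (ha : 1 ≤ a) (hab : a ≤ b) :
    ((b + e).choose b - 1 + a).choose a ≤ ((a + e).choose a - 1 + b).choose b := by
  have h := main_real e a ha b hab
  unfold CC at h
  exact_mod_cast h

/-- binomial form with the number `d` of variables -/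
theorem main_choose (d a b : ℕ) (hab : a ≤ b) :
    ((d + b - 1).choose b + a - 1).choose a ≤ ((d + a - 1).choose a + b - 1).choose b := by
  rcases Nat.eq_zero_or_pos a with rfl | ha
  · rcases Nat.eq_zero_or_pos d with rfl | hd
    · simp
    · have h1 : (d + 0 - 1).choose 0 = 1 := Nat.choose_zero_right _
      rw [h1]
      simp
  · rcases Nat.eq_zero_or_pos d with rfl | hd
    · have hb : 1 ≤ b := le_trans ha hab
      have h1 : (0 + b - 1).choose b = 0 := Nat.choose_eq_zero_of_lt (by omega)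
      rw [h1]
      have h3 : (0 + a - 1).choose a = 0 := Nat.choose_eq_zero_of_lt (by omega)
      rw [h3]
      exact Nat.zero_le _
    · obtain ⟨e, rfl⟩ : ∃ e, d = e + 1 := ⟨d - 1, by omega⟩
      have h := main_nat e a b ha hab
      have e1 : e + 1 + b - 1 = b + e := by omega
      have e2 : e + 1 + a - 1 = a + e := by omega
      rw [e1, e2]
      have p1 : 1 ≤ (b + e).choose b := Nat.choose_pos (Nat.le_add_right b e)
      have p2 : 1 ≤ (a + e).choose a := Nat.choose_pos (Nat.le_add_right a e)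
      have e3 : (b + e).choose b + a - 1 = (b + e).choose b - 1 + a := by omega
      have e4 : (a + e).choose a + b - 1 = (a + e).choose a - 1 + b := by omega
      rw [e3, e4]
      exact h

/-- cardinality form: multisets of size `a` of multisets of size `b` of `d` letters -/
theorem main_card (d a b : ℕ) (hab : a ≤ b) :
    Fintype.card (Sym (Sym (Fin d) b) a) ≤ Fintype.card (Sym (Sym (Fin d) a) b) := by
  rw [Sym.card_sym_eq_choose, Sym.card_sym_eq_choose, Sym.card_sym_eq_choose,
    Sym.card_sym_eq_choose, Fintype.card_fin]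
  exact main_choose d a b hab

/-- the space of homogeneous polynomials of degree `n` in variables indexed by `σ` has a basis
indexed by the multisets of size `n` of elements of `σ` (the monomials) -/
theorem finrank_homog (σ : Type) [Fintype σ] [DecidableEq σ] (n : ℕ) :
    Module.finrank ℂ (MvPolynomial.homogeneousSubmodule σ ℂ n) = Fintype.card (Sym σ n) := by
  classical
  rw [MvPolynomial.homogeneousSubmodule_eq_finsupp_supported]
  have e1 := AddMonoidAlgebra.supportedEquivFinsupp (R := ℂ) (S := ℂ)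
    {d : σ →₀ ℕ | d.degree = n}
  rw [LinearEquiv.finrank_eq e1]
  let e2 : Sym σ n ≃ {d : σ →₀ ℕ | d.degree = n} :=
    (Sym.equivNatSum σ n).trans (Equiv.subtypeEquivRight (fun P => Iff.rfl))
  have : Fintype {d : σ →₀ ℕ | d.degree = n} := Fintype.ofEquiv _ e2
  rw [Module.finrank_finsupp_self]
  exact (Fintype.card_congr e2).symm

/-- dimension form: homogeneous polynomials of degree `a` in the monomials of degree `b` in `d`
variables, against degree `b` in the monomials of degree `a` -/
theorem main_finrank (d a b : ℕ) (hab : a ≤ b) :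
    Module.finrank ℂ (MvPolynomial.homogeneousSubmodule (Sym (Fin d) b) ℂ a) ≤
      Module.finrank ℂ (MvPolynomial.homogeneousSubmodule (Sym (Fin d) a) ℂ b) := by
  rw [finrank_homog, finrank_homog]
  exact main_card d a b hab

end Vale.Agent.Lib.P181.H49
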